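import Vale.Agent.P028.H530.Delta
import Vale.Agent.P028.H383.Col
attribute [-instance] ProperSMul.toContinuousSMul IsTopologicalTorsor.toContinuousSMul IdemSemiring.toCanonicallyOrderedAdd IdemSemiring.toMulLeftMono IdemSemiring.toMulRightMono AddQuantale.instAddLeftMono AddQuantale.instAddRightMono Quantale.instMulLeftMono Quantale.instMulRightMono FiniteDimensional.rclike_to_real IsScalarTower.complexToReal FiniteDimensional.complexToReal

/-!
# The removers of one filled word, in terms of numbers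

`Y` is a set of moduli whose parts `> t` differ only at omitted primes (the primes of `B r` for
the modulus `r`): all of them become the same word when their omitted places are filled. Then
`∑ r ∈ Y, ∏ p ∈ B r, lam * dd g c1 c r p ≤ 1 / (1 - lam * c)`.
-/

namespace Vale.P028.H669

open Finset

variable {μ μ' : ℕ → ℝ} {u : ℕ → Bool}

theorem Wk_congr_muX {a b : ℕ} (h : ∀ j, a ≤ j → j < b → μ' j = μ j) : Wk μ' u a b = Wk μ u a b := by
  unfold Wk eM
  congr 1
  refine sum_congr rfl fun j hj => ?_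
  rw [mem_Ico] at hj
  rw [h j hj.1 hj.2]

theorem RM_congr_muX {s b : ℕ} (h : ∀ j, s ≤ j → j < b → μ' j = μ j) :
    RM μ' u s b = RM μ u s b := by
  have h1 : ∀ y, y ≤ max s b → Wk μ' u s y = Wk μ u s y := fun y hy => by
    refine Wk_congr_muX fun j hj1 hj2 => h j hj1 ?_
    rcases le_total s b with h3 | h3
    · rw [max_eq_right h3] at hy
      omega
    · rw [max_eq_left h3] at hy
      omega
  apply le_antisymm
  · refine RM_le fun y hy1 hy2 => ?_
    rw [h1 y hy2]
    rcases le_total s b with h3 | h3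
    · rw [max_eq_right h3] at hy2
      exact le_RM hy1 hy2
    · rw [max_eq_left h3] at hy2
      have : y = s := le_antisymm hy2 hy1
      rw [this, Wk_self]
      exact RM_nonneg _ _
  · refine RM_le fun y hy1 hy2 => ?_
    rw [← h1 y hy2]
    rcases le_total s b with h3 | h3
    · rw [max_eq_right h3] at hy2
      exact le_RM hy1 hy2
    · rw [max_eq_left h3] at hy2
      have : y = s := le_antisymm hy2 hy1
      rw [this, Wk_self]
      exact RM_nonneg _ _

/-- the dilution depends only on the masses before the end of the phase -/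
theorem dl_congr_muX {c : ℝ} {s e j : ℕ} (h : ∀ k, k < e → μ' k = μ k) :
    dl μ' u c s e j = dl μ u c s e j := by
  unfold dl
  split_ifs with h1
  · unfold ov
    rw [RM_congr_muX (μ := μ) (μ' := μ') (fun k _ h3 => h k (by omega) :
        ∀ k, s ≤ k → k < j + 1 → μ' k = μ k),
      RM_congr_muX (μ := μ) (μ' := μ') (fun k _ h3 => h k (by omega) :
        ∀ k, s ≤ k → k < j → μ' k = μ k),
      RM_congr_muX (μ := μ) (μ' := μ') (fun k _ h3 => h k h3 : ∀ k, s ≤ k → k < e → μ' k = μ k),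
      h j h1.2]
  · rfl

theorem dl_mul_constX {c lam : ℝ} {s e j : ℕ} : dl μ u (lam * c) s e j = lam * dl μ u c s e j := by
  unfold dl
  split_ifs
  · ring
  · ring

end Vale.P028.H669

namespace Vale.P028.SK

open Finset CF RN H669 RK

variable {g : Cfg}

/-- two moduli whose labels differ only at primes which are not split for one of them are in the
same cell -/
theorem cell_of_unsplitX {r r' t : ℕ} (hr' : r' ∈ g.V)
    (h : ∀ p, p.Prime → t < p → p ≤ N g → r'.factorization p ≠ r.factorization p →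
      ¬ Spl g r p ∨ ¬ Spl g r' p) :
    r' ∈ NT.cell g.V (f g) (thr g) (N g) t r := by
  by_contra hcon
  obtain ⟨p, p1, p2, p3, p4, p5, p6⟩ := NT.exists_sep hr' hcon
  rcases h p p1 p2 p3 p6 with h1 | h1
  · exact h1 p5
  · apply h1
    unfold Spl
    rw [NT.cell_eq p4]
    exact p5

section cell

variable {t x y : ℕ} (h : y ∈ NT.cell g.V (f g) (thr g) (N g) t x)

include h

theorem Spl_cellX {p : ℕ} (hp : t < p) : Spl g y p ↔ Spl g x p := by
  unfold Spl
  rw [NT.cell_eq (NT.cell_mono hp.le x h)]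

theorem hn_cellX {j : ℕ} (hj : j < N g - t) : hn g y j = hn g x j := by
  have h1 : t < N g - j := by omega
  have h2 : (Qc g y).factorization (N g - j) = (Qc g x).factorization (N g - j) := by
    rw [Qc_fac, Qc_fac, kc_congr h h1]
  have h3 := Spl_cellX h h1
  unfold hn
  rw [h2]
  by_cases h4 : (Qc g x).factorization (N g - j) ≠ 0
  · by_cases h5 : Spl g x (N g - j)
    · rw [if_neg fun h' => h'.2 (h3.2 h5), if_neg fun h' => h'.2 h5]
    · rw [if_pos ⟨h4, fun h' => h5 (h3.1 h')⟩, if_pos ⟨h4, h5⟩]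
  · rw [if_neg fun h' => h4 h'.1, if_neg fun h' => h4 h'.1]

theorem muw_cellX (c1 : ℝ) {j : ℕ} (hj : j < N g - t) : muw g c1 y j = muw g c1 x j := by
  unfold muw
  rw [hn_cellX h hj]

/-- the flags of two moduli of one cell, at a place with the same exponent -/
theorem uw_cellX (hy : y ∈ g.V) (hx : x ∈ g.V) {j : ℕ} (hj : j < N g - t)
    (hv : y.factorization (N g - j) = x.factorization (N g - j)) : uw g y j = uw g x j := by
  have h1 : t < N g - j := by omega
  have hj' : j < N g := by omega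
  have h2 : (Md g y).factorization (N g - j) = (Md g x).factorization (N g - j) := by
    rw [Md_fac, Md_fac, kc_congr h h1, hv]
  have h3 := uw_false (g := g) hy hj'
  have h4 := uw_false (g := g) hx hj'
  rw [h2] at h3
  rcases hb : uw g x j with _ | _
  · exact h3.2 (h4.1 hb)
  · rcases hc : uw g y j with _ | _
    · rw [h4.2 (h3.1 hc)] at hb
      exact absurd hb (by simp)
    · rfl

end cell

/-- the flag is set at a smaller exponent -/
theorem uw_of_ltX {y : ℕ} (hy : y ∈ g.V) {j : ℕ} (hP : N g - j ∈ PO (zs g) (N g)) (hj : j < N g)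
    (hv : y.factorization (N g - j) < kc g y (N g - j)) : uw g y j = true := by
  rcases hb : uw g y j with _ | _
  · have h1 := (uw_false hy hj).1 hb
    rw [Md_fac, if_pos hP] at h1
    omega
  · rfl

open Classical in
/-- **THE REMOVERS OF ONE FILLED WORD.** -/
theorem rem_sum {c1 c lam : ℝ} (h1 : 0 < c1) (hz : 2 ≤ c1 * zs g) (hc : 0 ≤ c) (hlam : 0 ≤ lam)
    (hlc : lam * c < 1) {Y : Finset ℕ} (hY : Y ⊆ g.V) {t m : ℕ} (hzt : zs g ≤ t)
    (hph : ∀ r ∈ Y, ∃ a ∈ NwP g r, a ≤ m ∧ N g - t ≤ nxw g r a)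
    (B : ℕ → Finset ℕ)
    (hB : ∀ r ∈ Y, ∀ p ∈ B r, p ≤ N g ∧ t < p ∧ m ≤ N g - p ∧ r.factorization p = kc g r p)
    (hsame : ∀ r ∈ Y, ∀ r' ∈ Y, ∀ p, p.Prime → t < p → p ≤ N g → p ∉ B r → p ∉ B r' →
      r.factorization p = r'.factorization p)
    (hfill : ∀ r ∈ Y, ∀ r' ∈ Y, ∀ p ∈ B r, p ∉ B r' → r'.factorization p < r.factorization p)
    (hinj : ∀ r ∈ Y, ∀ r' ∈ Y, (∀ p, p.Prime → t < p → p ≤ N g →
      r.factorization p = r'.factorization p) → r = r') :
    ∑ r ∈ Y, ∏ p ∈ B r, (lam * dd g c1 c r p) ≤ 1 / (1 - lam * c) := by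
  -- the moduli whose weight is not zero
  set T := Y.filter (fun r => ∀ p ∈ B r, dd g c1 c r p ≠ 0) with hT
  have hTm : ∀ r ∈ T, r ∈ Y ∧ r ∈ g.V ∧ ∀ p ∈ B r, dd g c1 c r p ≠ 0 := fun r hr =>
    ⟨(mem_filter.1 hr).1, hY (mem_filter.1 hr).1, (mem_filter.1 hr).2⟩
  have e1 : ∑ r ∈ Y, ∏ p ∈ B r, (lam * dd g c1 c r p) =
      ∑ r ∈ T, ∏ p ∈ B r, (lam * dd g c1 c r p) := by
    rw [hT, sum_filter]
    refine sum_congr rfl fun r _ => ?_
    split_ifs with h
    · rfl
    · push Not at h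
      obtain ⟨p, hp, h0⟩ := h
      exact prod_eq_zero hp (by rw [h0, mul_zero])
  rw [e1]
  have h1c : 0 ≤ 1 / (1 - lam * c) := div_nonneg zero_le_one (by linarith)
  rcases T.eq_empty_or_nonempty with h0 | ⟨r0, hr0⟩
  · rw [h0, sum_empty]
    exact h1c
  obtain ⟨hr0Y, hr0V, -⟩ := hTm r0 hr0
  -- the omitted primes
  have hsup : ∀ r ∈ T, ∀ p ∈ B r, uw g r (N g - p) = false ∧ p ∈ PO (zs g) (N g) ∧
      ¬ Spl g r p := by
    intro r hr p hp
    obtain ⟨hrY, hrV, hrd⟩ := hTm r hr
    obtain ⟨b1, b2, b3, b4⟩ := hB r hrY p hp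
    have e2 : N g - (N g - p) = p := by omega
    have h2 := hrd p hp
    rw [← e2] at h2
    obtain ⟨s, -, -, -, -, -, -, h8, h9, h10⟩ := dd_ne h2 (by omega)
    rw [e2] at h9 h10
    exact ⟨h8, (Qc_prime h9).1, h10⟩
  have hcell : ∀ r ∈ T, r ∈ NT.cell g.V (f g) (thr g) (N g) t r0 := by
    intro r hr
    obtain ⟨hrY, hrV, -⟩ := hTm r hr
    refine cell_of_unsplitX hrV fun p hp hp1 hp2 hne => ?_
    by_cases hB0 : p ∈ B r0
    · exact Or.inl (hsup r0 hr0 p hB0).2.2
    · by_cases hB1 : p ∈ B r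
      · exact Or.inr (hsup r hr p hB1).2.2
      · exact absurd (hsame r hrY r0 hr0Y p hp hp1 hp2 hB1 hB0) hne
  have hkc : ∀ r ∈ T, ∀ p, t < p → kc g r p = kc g r0 p := fun r hr p hp =>
    kc_congr (hcell r hr) hp
  -- the word
  set y : ℕ → Bool := fun j => if ∃ r ∈ T, N g - j ∈ B r then true else uw g r0 j with hy
  set A : ℕ → Finset ℕ := fun r => (B r).image (fun p => N g - p) with hA
  have hAB : ∀ r ∈ T, ∀ j, j < N g → (j ∈ A r ↔ N g - j ∈ B r) := by
    intro r hr j hj
    simp only [hA, mem_image]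
    constructor
    · rintro ⟨p, hp, rfl⟩
      have h2 := (hB r (hTm r hr).1 p hp).1
      have e2 : N g - (N g - p) = p := by omega
      rwa [e2]
    · intro h
      exact ⟨_, h, by omega⟩
  have hword : ∀ r ∈ T, ∀ j, j < N g - t → uw g r j = emp y (A r) j := by
    intro r hr j hj
    obtain ⟨hrY, hrV, -⟩ := hTm r hr
    have hjN : j < N g := by omega
    have hjp : N g - (N g - j) = j := by omega
    by_cases hjA : j ∈ A r
    · rw [emp_mem hjA]
      have h2 := (hsup r hr _ ((hAB r hr j hjN).1 hjA)).1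
      rwa [hjp] at h2
    · rw [emp_not hjA]
      have hjB : N g - j ∉ B r := fun h => hjA ((hAB r hr j hjN).2 h)
      simp only [hy]
      split_ifs with hex
      · obtain ⟨r', hr', hB'⟩ := hex
        obtain ⟨hr'Y, hr'V, -⟩ := hTm r' hr'
        obtain ⟨b1, b2, b3, b4⟩ := hB r' hr'Y _ hB'
        have h2 := hfill r' hr'Y r hrY _ hB' hjB
        refine uw_of_ltX hrV (hsup r' hr' _ hB').2.1 hjN ?_
        rw [hkc r hr _ b2, ← hkc r' hr' _ b2, ← b4]
        exact h2
      · have h2 : N g - j ∉ B r0 := fun h => hex ⟨r0, hr0, h⟩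
        by_cases hpr : (N g - j).Prime
        · exact uw_cellX (hcell r hr) hrV hr0V hj
            (hsame r hrY r0 hr0Y _ hpr (by omega) (Nat.sub_le _ _) hjB h2)
        · refine uw_cellX (hcell r hr) hrV hr0V hj ?_
          rw [Nat.factorization_eq_zero_of_not_prime _ hpr,
            Nat.factorization_eq_zero_of_not_prime _ hpr]
  have hph' : ∀ r, ∃ a, r ∈ Y → a ∈ NwP g r ∧ a ≤ m ∧ N g - t ≤ nxw g r a := by
    intro r
    by_cases hr : r ∈ Y
    · obtain ⟨a, h2, h3, h4⟩ := hph r hr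
      exact ⟨a, fun _ => ⟨h2, h3, h4⟩⟩
    · exact ⟨0, fun h => absurd h hr⟩
  choose st hst using hph'
  have hμ0 : ∀ j, 0 ≤ muw g c1 r0 j := muw_nonneg h1.le r0
  have hμ2 : ∀ j, muw g c1 r0 j ≤ 1 / 2 := fun j => muw_le h1 two_pos hz r0 j
  -- the weights
  have hw : ∀ r ∈ T, ∏ p ∈ B r, (lam * dd g c1 c r p) ≤
      ∏ a ∈ A r, dl (muw g c1 r0) (emp y (A r)) (lam * c) (st r) (N g - t) a := by
    intro r hr
    obtain ⟨hrY, hrV, -⟩ := hTm r hr
    obtain ⟨s1, s2, s3⟩ := hst r hrY
    have inj : Set.InjOn (fun p => N g - p) (B r : Set ℕ) := by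
      intro p hp p' hp' hpp
      have h2 := (hB r hrY p hp).1
      have h3 := (hB r hrY p' hp').1
      simp only at hpp
      omega
    simp only [hA]
    rw [prod_image inj]
    refine prod_le_prod (fun p _ => mul_nonneg hlam (dd_nonneg h1.le hc r p)) fun p hp => ?_
    obtain ⟨b1, b2, b3, b4⟩ := hB r hrY p hp
    have e2 : N g - (N g - p) = p := by omega
    have h2 : dd g c1 c r p = dlw g c1 c r (st r) (N g - p) := by
      have h3 := dd_eq (g := g) (c1 := c1) (c := c) (q := r) s1 (show st r ≤ N g - p by omega)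
        (show N g - p < nxw g r (st r) by omega)
      rwa [e2] at h3
    have h3 : dlw g c1 c r (st r) (N g - p) ≤
        dl (muw g c1 r) (uw g r) c (st r) (nxw g r (st r)) (N g - p) := by
      unfold dlw
      split_ifs
      · exact le_rfl
      · exact dl_nonneg hc (muw_nonneg h1.le r) _ _ _
    have h4 := dl_le_cut (μ := muw g c1 r) (u := uw g r) (s := st r) (j := N g - p) hc
      (muw_nonneg h1.le r) s3 (by omega)
    have h5 : dl (muw g c1 r) (uw g r) c (st r) (N g - t) (N g - p) =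
        dl (muw g c1 r0) (emp y (A r)) c (st r) (N g - t) (N g - p) := by
      rw [dl_congr_muX (μ := muw g c1 r0) (fun k hk => muw_cellX (hcell r hr) c1 hk)]
      exact dl_congr_cut fun k _ hk => hword r hr k hk
    rw [dl_mul_constX]
    refine mul_le_mul_of_nonneg_left ?_ hlam
    rw [h2]
    refine h3.trans (h4.trans (le_of_eq ?_))
    rw [h5]
  refine (sum_le_sum hw).trans ?_
  have h2 := col_sum (u := y) hμ0 hμ2 (mul_nonneg hlam hc) hlc (m := m) (e := N g - t) T A st 1
    (fun r hr => (hst r (hTm r hr).1).2.1) (fun r hr a ha => ?_) fun B' => ?_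
  · rwa [Nat.cast_one, one_mul] at h2
  · simp only [hA, mem_image] at ha
    obtain ⟨p, hp, rfl⟩ := ha
    obtain ⟨b1, b2, b3, b4⟩ := hB r (hTm r hr).1 p hp
    have e2 : N g - (N g - p) = p := by omega
    refine ⟨b3, ?_⟩
    simp only [hy]
    rw [e2, if_pos ⟨r, hr, hp⟩]
  · rw [card_le_one]
    intro r hr r' hr'
    obtain ⟨hrT, hrA⟩ := mem_filter.1 hr
    obtain ⟨hr'T, hr'A⟩ := mem_filter.1 hr'
    obtain ⟨hrY, hrV, -⟩ := hTm r hrT
    obtain ⟨hr'Y, hr'V, -⟩ := hTm r' hr'T
    have hAA : A r = A r' := by rw [hrA, hr'A]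
    have hBB : ∀ p, p ∈ B r → p ∈ B r' := by
      intro p hp
      obtain ⟨b1, b2, b3, b4⟩ := hB r hrY p hp
      have e2 : N g - (N g - p) = p := by omega
      have h3 := (hAB r hrT (N g - p) (by omega)).2 (by rwa [e2])
      rw [hAA] at h3
      have h4 := (hAB r' hr'T (N g - p) (by omega)).1 h3
      rwa [e2] at h4
    have hBB' : ∀ p, p ∈ B r' → p ∈ B r := by
      intro p hp
      obtain ⟨b1, b2, b3, b4⟩ := hB r' hr'Y p hp
      have e2 : N g - (N g - p) = p := by omega
      have h3 := (hAB r' hr'T (N g - p) (by omega)).2 (by rwa [e2])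
      rw [← hAA] at h3
      have h4 := (hAB r hrT (N g - p) (by omega)).1 h3
      rwa [e2] at h4
    refine hinj r hrY r' hr'Y fun p hp hp1 hp2 => ?_
    by_cases hpB : p ∈ B r
    · rw [(hB r hrY p hpB).2.2.2, (hB r' hr'Y p (hBB p hpB)).2.2.2, hkc r hrT p hp1,
        hkc r' hr'T p hp1]
    · exact hsame r hrY r' hr'Y p hp hp1 hp2 hpB fun h => hpB (hBB' p h)

end Vale.P028.SK
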