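import Vale.Agent.P028.H383.Col

/-!
# Removers with a varying rest pattern

A word `y`; partners `x` whose types are those of `y`, emptied at the places `B x` (removers, of
positive dilution) and arbitrary at the rest places `W x`.  Every removed place has the weight `c`,
every rest place `w` the weight `φ w * ψ w`, where `ψ` is summable over the deviations of `y` and
`φ` over every set of places with gaps.  The sum over the partners is bounded.
-/

namespace Vale.P028.H669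

open Finset

variable {μ : ℕ → ℝ}

/-- a place of positive dilution after a deviation: the mass between them is larger than `1` -/
theorem gap_of_ov {v : ℕ → Bool} (hμ : ∀ j, 0 ≤ μ j) {s e b b' : ℕ} (hs : s ≤ b) (hb : b < b')
    (hv : v b = true) (h : 0 < ov μ v s e b') : 1 < ∑ j ∈ Ioc b b', μ j := by
  obtain ⟨-, q2, -⟩ := ov_pos (show s ≤ b' by omega) h
  have f2 : Wk μ v s b ≤ RM μ v s b' := le_RM hs hb.le
  have f4 : Wk μ v s (b' + 1) = Wk μ v s (b + 1) + Wk μ v (b + 1) (b' + 1) :=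
    Wk_add (by omega) (by omega)
  have f5 : Wk μ v s (b + 1) = Wk μ v s b - 1 := by
    rw [Wk_succ hs, hv, if_pos rfl]; ring
  have f6 : Wk μ v (b + 1) (b' + 1) ≤ ∑ j ∈ Ioc b b', μ j := by
    have e1 : Ico (b + 1) (b' + 1) = Ioc b b' := by
      ext j
      rw [mem_Ico, mem_Ioc]
      omega
    unfold Wk eM
    rw [e1]
    have h1 : (0 : ℝ) ≤ dN v (b + 1) (b' + 1) := Nat.cast_nonneg _
    have h2 : ∑ j ∈ Ioc b b', (if v j then 0 else μ j) ≤ ∑ j ∈ Ioc b b', μ j :=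
      sum_le_sum fun j _ => by
        split_ifs
        · exact hμ j
        · exact le_rfl
    linarith
  linarith

/-- the partners of one word `y`: the types `v x` of the partner `x` are those of `y` off the
removed places `B x` and the rest places `W x`; its phase starts at `st x ≤ m` -/
structure RemPre (μ : ℕ → ℝ) (y : ℕ → Bool) {β : Type*} (S : Finset β) (B W : β → Finset ℕ)
    (v : β → ℕ → Bool) (st : β → ℕ) (m e : ℕ) (Dv : Finset ℕ) : Prop where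
  mu_nonneg : ∀ j, 0 ≤ μ j
  mu_le : ∀ j, μ j ≤ 1 / 2
  sub : ∀ x ∈ S, B x ⊆ Dv
  Dv_mem : ∀ b ∈ Dv, m ≤ b ∧ b < e ∧ y b = true
  disj : ∀ x ∈ S, Disjoint (B x) (W x)
  type : ∀ x ∈ S, ∀ j, m ≤ j → j ∉ B x → j ∉ W x → v x j = y j
  st_le : ∀ x ∈ S, st x ≤ m

/-- ... and the removed places have positive dilution in the phase `[st x, en x)` -/
structure RemSys (μ : ℕ → ℝ) (y : ℕ → Bool) {β : Type*} (S : Finset β) (B W : β → Finset ℕ)
    (v : β → ℕ → Bool) (st en : β → ℕ) (m e : ℕ) (Dv : Finset ℕ) : Prop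
    extends RemPre μ y S B W v st m e Dv where
  pos : ∀ x ∈ S, ∀ b ∈ B x, b < en x ∧ 0 < ov μ (v x) (st x) (en x) b

variable {y : ℕ → Bool} {β : Type*} {S : Finset β} {B W : β → Finset ℕ}
  {v : β → ℕ → Bool} {st en : β → ℕ} {m e : ℕ} {Dv : Finset ℕ}

theorem RemSys.excl (H : RemSys μ y S B W v st en m e Dv) {x x' : β} (hx : x ∈ S) (hx' : x' ∈ S)
    {t b b' : ℕ} (htm : m ≤ t) (htb : t ≤ b) (hbb : b < b') (hb : b ∈ B x) (hb' : b' ∈ B x')
    (hn' : ∀ j ∈ B x', t ≤ j → b' ≤ j) (hw' : ∀ w ∈ W x', t ≤ w → b' ≤ w)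
    (hw : ∀ w ∈ W x, t ≤ w → b' ≤ w) : en x < b' := by
  by_contra hen
  rw [not_lt] at hen
  obtain ⟨h1, h2⟩ := H.pos x hx b hb
  obtain ⟨h1', h2'⟩ := H.pos x' hx' b' hb'
  have hs := H.st_le x hx
  have hs' := H.st_le x' hx'
  have hy : y b = true := (H.Dv_mem b (H.sub x hx hb)).2.2
  have key : ∀ j, t ≤ j → j < b' → v x' j = y j := fun j hj1 hj2 => by
    refine H.type x' hx' j (by omega) (fun h => ?_) fun h => ?_
    · have := hn' j h hj1
      omega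
    · have := hw' j h hj1
      omega
  refine remover_unique2 H.mu_nonneg (show st x ≤ b by omega) (show st x' ≤ b by omega) hbb hen
    (H.mu_le b') (fun j hj1 hj2 hj => ?_) ?_ h2 h2'
  · rw [key j (by omega) hj2, ← H.type x hx j (by omega) (fun h => ?_) fun h => ?_]
    · exact hj
    · have h3 := (ov_pos (show st x ≤ j by omega) (H.pos x hx j h).2).1
      rw [h3] at hj
      exact absurd hj (by simp)
    · have := hw j h (by omega)
      omega
  · rw [key b htb hbb, hy]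

theorem RemSys.gap (H : RemSys μ y S B W v st en m e Dv) {x' : β} (hx' : x' ∈ S)
    {t b b' : ℕ} (htm : m ≤ t) (htb : t ≤ b) (hbb : b < b') (hb : b ∈ Dv) (hb' : b' ∈ B x')
    (hn' : ∀ j ∈ B x', t ≤ j → b' ≤ j) (hw' : ∀ w ∈ W x', t ≤ w → b' ≤ w) :
    1 < ∑ j ∈ Ioc b b', μ j := by
  have hs' := H.st_le x' hx'
  refine gap_of_ov H.mu_nonneg (show st x' ≤ b by omega) hbb ?_ (H.pos x' hx' b' hb').2
  rw [H.type x' hx' b (by omega) (fun h => ?_) fun h => ?_]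
  · exact (H.Dv_mem b hb).2.2
  · have := hn' b h htb
    omega
  · have := hw' b h htb
    omega

/-- the weight of the places `≥ t` of a partner -/
noncomputable def wtR (h : β → ℝ) (B W : β → Finset ℕ) (c : ℝ) (ρ : ℕ → ℝ) (t : ℕ) (x : β) : ℝ :=
  h x * (c ^ ((B x).filter (fun b => t ≤ b)).card * ∏ w ∈ (W x).filter (fun w => t ≤ w), ρ w)

theorem prod_le_of_mem {T : Finset ℕ} {ρ : ℕ → ℝ} (h0 : ∀ w, 0 ≤ ρ w) (h1 : ∀ w, ρ w ≤ 1) {w : ℕ}
    (hw : w ∈ T) : ∏ w ∈ T, ρ w ≤ ρ w := by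
  classical
  rw [← mul_prod_erase T ρ hw]
  exact mul_le_of_le_one_right (h0 w) (prod_le_one (fun w _ => h0 w) fun w _ => h1 w)

/-- splitting off the first removed place -/
theorem wtR_step {h : β → ℝ} {c : ℝ} {ρ : ℕ → ℝ} {t b : ℕ} {x : β} (htb : t ≤ b) (hb : b ∈ B x)
    (hn : ∀ j ∈ B x, t ≤ j → b ≤ j) (hbW : b ∉ W x) :
    wtR h B W c ρ t x = c * (∏ w ∈ (W x).filter (fun w => t ≤ w ∧ w < b), ρ w) *
      wtR h B W c ρ (b + 1) x := by
  classical
  unfold wtR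
  have e1 : (B x).filter (fun j => t ≤ j) = insert b ((B x).filter (fun j => b + 1 ≤ j)) := by
    ext j
    simp only [mem_filter, mem_insert]
    constructor
    · rintro ⟨h1, h2⟩
      have := hn j h1 h2
      rcases this.eq_or_lt with h3 | h3
      · exact Or.inl h3.symm
      · exact Or.inr ⟨h1, h3⟩
    · rintro (rfl | ⟨h1, h2⟩)
      · exact ⟨hb, htb⟩
      · exact ⟨h1, by omega⟩
  have e2 : b ∉ (B x).filter (fun j => b + 1 ≤ j) := fun h => by
    have := (mem_filter.1 h).2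
    omega
  have e3 : ∏ w ∈ (W x).filter (fun w => t ≤ w), ρ w =
      (∏ w ∈ (W x).filter (fun w => t ≤ w ∧ w < b), ρ w) *
        ∏ w ∈ (W x).filter (fun w => b + 1 ≤ w), ρ w := by
    rw [← prod_union]
    · refine prod_congr ?_ fun _ _ => rfl
      ext w
      simp only [mem_filter, mem_union]
      constructor
      · rintro ⟨h1, h2⟩
        by_cases h3 : w < b
        · exact Or.inl ⟨h1, h2, h3⟩
        · refine Or.inr ⟨h1, ?_⟩
          have : w ≠ b := fun h => hbW (h ▸ h1)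
          omega
      · rintro (⟨h1, h2, -⟩ | ⟨h1, h2⟩)
        · exact ⟨h1, h2⟩
        · exact ⟨h1, by omega⟩
    · rw [disjoint_left]
      intro w h1 h2
      have h3 := (mem_filter.1 h1).2.2
      have h4 := (mem_filter.1 h2).2
      omega
  rw [e1, card_insert_of_notMem e2, pow_succ, e3]
  ring

theorem wtR_nonneg {h : β → ℝ} {c : ℝ} {ρ : ℕ → ℝ} (hc : 0 ≤ c) (hρ : ∀ w, 0 ≤ ρ w) {x : β}
    (hx : 0 ≤ h x) (t : ℕ) : 0 ≤ wtR h B W c ρ t x :=
  mul_nonneg hx (mul_nonneg (pow_nonneg hc _) (prod_nonneg fun w _ => hρ w))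

open Classical in
/-- the induction: the partners with the removed places `P` before `t` and a rest place in
`[t, a)` (no condition if `a = e`) -/
theorem lemR_ind (H : RemSys μ y S B W v st en m e Dv) {c G K : ℝ} {K1 : ℕ} {h : β → ℝ}
    {φ ψ : ℕ → ℝ} (hc : 0 ≤ c) (hK : 0 ≤ K) (hcs : c * (1 / 4 + G + 1 + K1) ≤ 1 / 2)
    (hh : ∀ x ∈ S, 0 ≤ h x)
    (hfib : ∀ P : Finset ℕ, ∑ x ∈ S.filter (fun x => B x = P), h x ≤ K)
    (hφ0 : ∀ w, 0 ≤ φ w) (hφ1 : ∀ w, φ w ≤ 1) (hψ0 : ∀ w, 0 ≤ ψ w) (hψ1 : ∀ w, ψ w ≤ 1)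
    (hφm : ∀ w w', w ≤ w' → w' < e → φ w ≤ φ w') (hψm : ∀ w w', w ≤ w' → w' < e → ψ w ≤ ψ w')
    (hψs : ∑ b ∈ Dv, ψ b ≤ 1 / 4)
    (hgap : ∀ D ⊆ Dv, (∀ b ∈ D, ∀ b' ∈ D, b < b' → 1 < ∑ j ∈ Ioc b b', μ j) →
      ∀ r : ℝ, 0 ≤ r → (∀ b ∈ D, φ b ≤ r) → ∑ b ∈ D, φ b ≤ G * r)
    (hend : ∀ (t : ℕ) (P D : Finset ℕ) (x : ℕ → β), m ≤ t → (∀ b ∈ D, x b ∈ S ∧
      (B (x b)).filter (fun j => j < t) = P ∧ t ≤ b ∧ b ∈ B (x b) ∧
      (∀ j ∈ B (x b), t ≤ j → b ≤ j) ∧ (∀ w ∈ W (x b), t ≤ w → en (x b) < w)) →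
      (∀ b ∈ D, ∀ b' ∈ D, b < b' → en (x b) < b') → D.card ≤ K1) :
    ∀ n t : ℕ, e - t = n → m ≤ t → ∀ (P : Finset ℕ) (a : ℕ),
      ∑ x ∈ S.filter (fun x => (B x).filter (fun j => j < t) = P ∧
        (e ≤ a ∨ ∃ w ∈ W x, t ≤ w ∧ w < a)), wtR h B W c (fun w => φ w * ψ w) t x ≤
        2 * K * (if a < e then φ a else 1) := by
  intro n
  induction n using Nat.strong_induction_on with
  | _ n ih =>
  intro t htn htm P a
  set ρ : ℕ → ℝ := fun w => φ w * ψ w with hρ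
  set Ph : ℕ → ℝ := fun a => if a < e then φ a else 1 with hPh
  have hρ0 : ∀ w, 0 ≤ ρ w := fun w => mul_nonneg (hφ0 w) (hψ0 w)
  have hρφ : ∀ w, ρ w ≤ φ w := fun w => mul_le_of_le_one_right (hφ0 w) (hψ1 w)
  have hρψ : ∀ w, ρ w ≤ ψ w := fun w => mul_le_of_le_one_left (hψ0 w) (hφ1 w)
  have hρ1 : ∀ w, ρ w ≤ 1 := fun w => (hρφ w).trans (hφ1 w)
  have hPh0 : ∀ a, 0 ≤ Ph a := fun a => by
    simp only [hPh]
    split_ifs
    · exact hφ0 a
    · exact zero_le_one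
  change _ ≤ 2 * K * Ph a
  set T := S.filter (fun x => (B x).filter (fun j => j < t) = P ∧
        (e ≤ a ∨ ∃ w ∈ W x, t ≤ w ∧ w < a)) with hT
  have hTm : ∀ x ∈ T, x ∈ S ∧ (B x).filter (fun j => j < t) = P ∧
      (e ≤ a ∨ ∃ w ∈ W x, t ≤ w ∧ w < a) := fun x hx => mem_filter.1 hx
  -- the induction hypothesis after the place `b`
  have IH : ∀ b, t ≤ b → b < e → ∀ a', ∑ x ∈ S.filter (fun x =>
      (B x).filter (fun j => j < b + 1) = insert b P ∧
        (e ≤ a' ∨ ∃ w ∈ W x, b + 1 ≤ w ∧ w < a')), wtR h B W c ρ (b + 1) x ≤ 2 * K * Ph a' :=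
    fun b hb1 hb2 a' => ih (e - (b + 1)) (by omega) (b + 1) rfl (by omega) _ a'
  -- the next removed place
  set nx : β → ℕ := fun x => sInf {b | b ∈ B x ∧ t ≤ b} with hnxd
  have hnx : ∀ x, (∃ b ∈ B x, t ≤ b) → nx x ∈ B x ∧ t ≤ nx x ∧ ∀ j ∈ B x, t ≤ j → nx x ≤ j := by
    intro x hx
    have h1 : nx x ∈ {b | b ∈ B x ∧ t ≤ b} := Nat.sInf_mem (by
      obtain ⟨b, h1, h2⟩ := hx
      exact ⟨b, h1, h2⟩)
    exact ⟨h1.1, h1.2, fun j h2 h3 => Nat.sInf_le ⟨h2, h3⟩⟩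
  have hfil : ∀ x, (B x).filter (fun j => j < t) = P → (∃ b ∈ B x, t ≤ b) →
      (B x).filter (fun j => j < nx x + 1) = insert (nx x) P := by
    intro x hx hx2
    obtain ⟨h1, h2, h3⟩ := hnx x hx2
    ext j
    rw [mem_filter, mem_insert, ← hx, mem_filter]
    constructor
    · rintro ⟨h4, h5⟩
      by_cases h6 : j < t
      · exact Or.inr ⟨h4, h6⟩
      · have := h3 j h4 (not_lt.1 h6)
        exact Or.inl (by omega)
    · rintro (rfl | ⟨h4, h5⟩)
      · exact ⟨h1, by omega⟩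
      · exact ⟨h4, by omega⟩
  have hstep : ∀ x ∈ T, (∃ b ∈ B x, t ≤ b) → wtR h B W c ρ t x =
      c * (∏ w ∈ (W x).filter (fun w => t ≤ w ∧ w < nx x), ρ w) * wtR h B W c ρ (nx x + 1) x := by
    intro x hx hx2
    obtain ⟨h1, h2, h3⟩ := hnx x hx2
    exact wtR_step h2 h1 h3 (disjoint_left.1 (H.disj x (hTm x hx).1) h1)
  -- the three parts
  set T' := T.filter (fun x => ∃ b ∈ B x, t ≤ b) with hT'
  set T1 := T'.filter (fun x => ∃ w ∈ W x, t ≤ w ∧ w < nx x) with hT1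
  set T2 := T'.filter (fun x => ¬ ∃ w ∈ W x, t ≤ w ∧ w < nx x) with hT2
  have hsplit : ∑ x ∈ T, wtR h B W c ρ t x =
      (∑ x ∈ T1, wtR h B W c ρ t x + ∑ x ∈ T2, wtR h B W c ρ t x) +
        ∑ x ∈ T.filter (fun x => ¬ ∃ b ∈ B x, t ≤ b), wtR h B W c ρ t x := by
    rw [← sum_filter_add_sum_filter_not T (fun x => ∃ b ∈ B x, t ≤ b), ← hT',
      ← sum_filter_add_sum_filter_not T' (fun x => ∃ w ∈ W x, t ≤ w ∧ w < nx x)]
  -- no removed place
  have p0 : ∑ x ∈ T.filter (fun x => ¬ ∃ b ∈ B x, t ≤ b), wtR h B W c ρ t x ≤ K * Ph a := by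
    have h1 : ∀ x ∈ T.filter (fun x => ¬ ∃ b ∈ B x, t ≤ b),
        wtR h B W c ρ t x ≤ h x * Ph a := by
      intro x hx
      obtain ⟨hx1, hx2⟩ := mem_filter.1 hx
      obtain ⟨hxS, -, hx3⟩ := hTm x hx1
      have e1 : (B x).filter (fun b => t ≤ b) = ∅ := filter_eq_empty_iff.2
        fun b hb hb2 => hx2 ⟨b, hb, hb2⟩
      unfold wtR
      rw [e1, card_empty, pow_zero, one_mul]
      refine mul_le_mul_of_nonneg_left ?_ (hh x hxS)
      simp only [hPh]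
      split_ifs with ha
      · rcases hx3 with h2 | ⟨w, h2, h3, h4⟩
        · omega
        · exact (prod_le_of_mem hρ0 hρ1 (mem_filter.2 ⟨h2, h3⟩)).trans
            ((hρφ w).trans (hφm w a h4.le ha))
      · exact prod_le_one (fun w _ => hρ0 w) fun w _ => hρ1 w
    refine (sum_le_sum h1).trans ?_
    rw [← sum_mul]
    refine mul_le_mul_of_nonneg_right (le_trans ?_ (hfib P)) (hPh0 a)
    refine sum_le_sum_of_subset_of_nonneg (fun x hx => ?_) fun x hx _ => hh x (mem_filter.1 hx).1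
    obtain ⟨hx1, hx2⟩ := mem_filter.1 hx
    obtain ⟨hxS, hx3, -⟩ := hTm x hx1
    refine mem_filter.2 ⟨hxS, ?_⟩
    rw [← hx3]
    refine (filter_true_of_mem fun b hb => ?_).symm
    by_contra hcon
    exact hx2 ⟨b, hb, not_lt.1 hcon⟩
  -- a rest place before the next removed place
  have p1 : ∑ x ∈ T1, wtR h B W c ρ t x ≤ c * (1 / 4) * (2 * K * Ph a) := by
    have hm1 : ∀ x ∈ T1, nx x ∈ Dv := fun x hx => by
      obtain ⟨hx1, hx2⟩ := mem_filter.1 (mem_filter.1 hx).1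
      exact H.sub x (hTm x hx1).1 (hnx x hx2).1
    rw [← sum_fiberwise_of_maps_to hm1]
    have h1 : ∀ b ∈ Dv, ∑ x ∈ T1.filter (fun x => nx x = b), wtR h B W c ρ t x ≤
        ψ b * (c * Ph a * (2 * K)) := by
      intro b hb
      obtain ⟨hb1, hb2, -⟩ := H.Dv_mem b hb
      have h2 : ∀ x ∈ T1.filter (fun x => nx x = b), wtR h B W c ρ t x ≤
          c * (Ph a * ψ b) * wtR h B W c ρ (b + 1) x := by
        intro x hx
        obtain ⟨hx1, rfl⟩ := mem_filter.1 hx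
        obtain ⟨hx2, w1, hw1, hw2, hw3⟩ := mem_filter.1 hx1
        obtain ⟨hx3, hx4⟩ := mem_filter.1 hx2
        obtain ⟨hxS, -, hx5⟩ := hTm x hx3
        rw [hstep x hx3 hx4]
        refine mul_le_mul_of_nonneg_right (mul_le_mul_of_nonneg_left ?_ hc)
          (wtR_nonneg hc hρ0 (hh x hxS) _)
        simp only [hPh]
        split_ifs with ha
        · rcases hx5 with h3 | ⟨w2, h3, h4, h5⟩
          · omega
          · rcases le_total w1 w2 with h6 | h6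
            · refine (prod_le_of_mem hρ0 hρ1 (mem_filter.2 ⟨hw1, hw2, hw3⟩)).trans ?_
              exact mul_le_mul (hφm w1 a (by omega) ha) (hψm w1 _ hw3.le hb2) (hψ0 _) (hφ0 _)
            · refine (prod_le_of_mem hρ0 hρ1 (mem_filter.2 ⟨h3, h4, by omega⟩)).trans ?_
              exact mul_le_mul (hφm w2 a (by omega) ha) (hψm w2 _ (by omega) hb2) (hψ0 _) (hφ0 _)
        · rw [one_mul]
          exact (prod_le_of_mem hρ0 hρ1 (mem_filter.2 ⟨hw1, hw2, hw3⟩)).trans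
            ((hρψ w1).trans (hψm w1 _ hw3.le hb2))
      rcases (T1.filter (fun x => nx x = b)).eq_empty_or_nonempty with h0 | ⟨x0, hx0⟩
      · rw [h0, sum_empty]
        exact mul_nonneg (hψ0 b) (mul_nonneg (mul_nonneg hc (hPh0 a)) (by linarith))
      have htb : t ≤ b := by
        obtain ⟨hx1, rfl⟩ := mem_filter.1 hx0
        exact (hnx x0 (mem_filter.1 (mem_filter.1 hx1).1).2).2.1
      refine (sum_le_sum h2).trans ?_
      rw [← mul_sum]
      have h3 : ∑ x ∈ T1.filter (fun x => nx x = b), wtR h B W c ρ (b + 1) x ≤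
          2 * K * Ph e := by
        refine le_trans (sum_le_sum_of_subset_of_nonneg (fun x hx => ?_) fun x hx _ =>
          wtR_nonneg hc hρ0 (hh x (mem_filter.1 hx).1) _) (IH b htb hb2 e)
        obtain ⟨hx1, rfl⟩ := mem_filter.1 hx
        obtain ⟨hx3, hx4⟩ := mem_filter.1 (mem_filter.1 hx1).1
        obtain ⟨hxS, hx6, -⟩ := hTm x hx3
        exact mem_filter.2 ⟨hxS, hfil x hx6 hx4, Or.inl le_rfl⟩
      have h4 : Ph e = 1 := by
        simp only [hPh]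
        rw [if_neg (lt_irrefl e)]
      rw [h4, mul_one] at h3
      calc c * (Ph a * ψ b) * ∑ x ∈ T1.filter (fun x => nx x = b), wtR h B W c ρ (b + 1) x ≤
            c * (Ph a * ψ b) * (2 * K) :=
            mul_le_mul_of_nonneg_left h3 (mul_nonneg hc (mul_nonneg (hPh0 a) (hψ0 b)))
        _ = _ := by ring
    refine (sum_le_sum h1).trans ?_
    rw [← sum_mul]
    calc (∑ b ∈ Dv, ψ b) * (c * Ph a * (2 * K)) ≤ 1 / 4 * (c * Ph a * (2 * K)) :=
          mul_le_mul_of_nonneg_right hψs (mul_nonneg (mul_nonneg hc (hPh0 a)) (by linarith))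
      _ = _ := by ring
  -- no rest place before the next removed place
  have p2 : ∑ x ∈ T2, wtR h B W c ρ t x ≤ c * (G + 1 + K1) * (2 * K * Ph a) := by
    have f2 : ∀ x ∈ T2, x ∈ S ∧ (B x).filter (fun j => j < t) = P ∧
        (e ≤ a ∨ ∃ w ∈ W x, t ≤ w ∧ w < a) ∧ (∃ b ∈ B x, t ≤ b) ∧
        (∀ w ∈ W x, t ≤ w → nx x < w) := by
      intro x hx
      obtain ⟨hx1, hx2⟩ := mem_filter.1 hx
      obtain ⟨hx3, hx4⟩ := mem_filter.1 hx1
      obtain ⟨hxS, hx5, hx6⟩ := hTm x hx3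
      refine ⟨hxS, hx5, hx6, hx4, fun w hw hw2 => ?_⟩
      have h1 : w ≠ nx x := fun h1 =>
        disjoint_left.1 (H.disj x hxS) (hnx x hx4).1 (h1 ▸ hw)
      have h2 : ¬ w < nx x := fun h2 => hx2 ⟨w, hw, hw2, h2⟩
      omega
    set D := T2.image nx with hD
    have hDm : ∀ b ∈ D, ∃ x ∈ T2, nx x = b := fun b hb => mem_image.1 hb
    have hDv : D ⊆ Dv := fun b hb => by
      obtain ⟨x, hx, rfl⟩ := hDm b hb
      obtain ⟨hxS, -, -, hx4, -⟩ := f2 x hx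
      exact H.sub x hxS (hnx x hx4).1
    have hDt : ∀ b ∈ D, t ≤ b := fun b hb => by
      obtain ⟨x, hx, rfl⟩ := hDm b hb
      exact (hnx x (f2 x hx).2.2.2.1).2.1
    have hDφ : ∀ b ∈ D, φ b ≤ Ph a := by
      intro b hb
      obtain ⟨x, hx, rfl⟩ := hDm b hb
      obtain ⟨hxS, -, hx3, hx4, hx5⟩ := f2 x hx
      simp only [hPh]
      split_ifs with ha
      · rcases hx3 with h1 | ⟨w, h1, h2, h3⟩
        · omega
        · have := hx5 w h1 h2
          exact hφm _ a (by omega) ha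
      · exact hφ1 _
    -- the next candidate
    set sc : ℕ → ℕ := fun b => sInf {b' | b' ∈ D ∧ b < b'} with hsc
    have hs : ∀ b, (∃ b' ∈ D, b < b') → sc b ∈ D ∧ b < sc b ∧ ∀ b' ∈ D, b < b' → sc b ≤ b' := by
      intro b hb
      have h1 : sc b ∈ {b' | b' ∈ D ∧ b < b'} := Nat.sInf_mem (by
        obtain ⟨b', h1, h2⟩ := hb
        exact ⟨b', h1, h2⟩)
      exact ⟨h1.1, h1.2, fun j h2 h3 => Nat.sInf_le ⟨h2, h3⟩⟩
    -- the ending candidates
    set E := D.filter (fun b => ∃ x ∈ T2, nx x = b ∧ (∀ w ∈ W x, t ≤ w → en x < w) ∧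
      ∀ b' ∈ D, b < b' → en x < b') with hE
    have hEc : E.card ≤ K1 := by
      rcases E.eq_empty_or_nonempty with h0 | ⟨b0, hb0⟩
      · rw [h0, card_empty]
        exact Nat.zero_le _
      obtain ⟨x0, -, -⟩ := (mem_filter.1 hb0).2
      have hne : Nonempty β := ⟨x0⟩
      have h1 : ∀ b, ∃ x, b ∈ E → x ∈ T2 ∧ nx x = b ∧ (∀ w ∈ W x, t ≤ w → en x < w) ∧
          ∀ b' ∈ D, b < b' → en x < b' := by
        intro b
        by_cases hb : b ∈ E
        · obtain ⟨x, hx⟩ := (mem_filter.1 hb).2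
          exact ⟨x, fun _ => hx⟩
        · exact ⟨x0, fun h => absurd h hb⟩
      choose xf hxf using h1
      refine hend t P E xf htm (fun b hb => ?_) fun b hb b' hb' hbb => ?_
      · obtain ⟨h2, h3, h4, -⟩ := hxf b hb
        obtain ⟨hxS, h5, -, h6, -⟩ := f2 _ h2
        obtain ⟨h7, h8, h9⟩ := hnx _ h6
        rw [h3] at h7 h8 h9
        exact ⟨hxS, h5, h8, h7, h9, h4⟩
      · exact (hxf b hb).2.2.2 b' (mem_filter.1 hb').1 hbb
    rw [← sum_fiberwise_of_maps_to (fun x hx => mem_image_of_mem nx hx)]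
    have h1 : ∀ b ∈ D, ∑ x ∈ T2.filter (fun x => nx x = b), wtR h B W c ρ t x ≤
        c * (2 * K) * ((if b ∈ E then Ph a else 0) +
          (if ∃ b' ∈ D, b < b' then φ (sc b) else Ph a)) := by
      intro b hb
      have htb := hDt b hb
      obtain ⟨hb1, hb2, -⟩ := H.Dv_mem b (hDv hb)
      have h2 : ∀ x ∈ T2.filter (fun x => nx x = b), wtR h B W c ρ t x ≤
          c * wtR h B W c ρ (b + 1) x := by
        intro x hx
        obtain ⟨hx1, rfl⟩ := mem_filter.1 hx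
        obtain ⟨hxS, hx2, hx3, hx4, hx5⟩ := f2 x hx1
        rw [hstep x (mem_filter.1 (mem_filter.1 hx1).1).1 hx4]
        refine mul_le_mul_of_nonneg_right ?_ (wtR_nonneg hc hρ0 (hh x hxS) _)
        exact mul_le_of_le_one_right hc (prod_le_one (fun w _ => hρ0 w) fun w _ => hρ1 w)
      refine (sum_le_sum h2).trans ?_
      rw [← mul_sum, mul_assoc c]
      refine mul_le_mul_of_nonneg_left ?_ hc
      -- all of them
      have hA : ∑ x ∈ T2.filter (fun x => nx x = b), wtR h B W c ρ (b + 1) x ≤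
          2 * K * Ph a := by
        refine le_trans (sum_le_sum_of_subset_of_nonneg (fun x hx => ?_) fun x hx _ =>
          wtR_nonneg hc hρ0 (hh x (mem_filter.1 hx).1) _) (IH b htb hb2 a)
        obtain ⟨hx1, rfl⟩ := mem_filter.1 hx
        obtain ⟨hxS, hx2, hx3, hx4, hx5⟩ := f2 x hx1
        refine mem_filter.2 ⟨hxS, hfil x hx2 hx4, ?_⟩
        rcases hx3 with h3 | ⟨w, h3, h4, h5⟩
        · exact Or.inl h3
        · exact Or.inr ⟨w, h3, hx5 w h3 h4, h5⟩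
      have h2K : 0 ≤ 2 * K := by linarith
      by_cases hbE : b ∈ E
      · rw [if_pos hbE]
        refine hA.trans (mul_le_mul_of_nonneg_left ?_ h2K)
        have : 0 ≤ (if ∃ b' ∈ D, b < b' then φ (sc b) else Ph a) := by
          split_ifs
          · exact hφ0 _
          · exact hPh0 a
        linarith
      · rw [if_neg hbE, zero_add]
        by_cases hbig : ∃ b' ∈ D, b < b'
        · rw [if_pos hbig]
          obtain ⟨hs1, hs2, hs3⟩ := hs b hbig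
          have hse : sc b < e := (H.Dv_mem _ (hDv hs1)).2.1
          have e1 : Ph (sc b) = φ (sc b) := by
            simp only [hPh]
            rw [if_pos hse]
          rw [← e1]
          refine le_trans (sum_le_sum_of_subset_of_nonneg (fun x hx => ?_) fun x hx _ =>
            wtR_nonneg hc hρ0 (hh x (mem_filter.1 hx).1) _) (IH b htb hb2 (sc b))
          obtain ⟨hx1, hx0⟩ := mem_filter.1 hx
          obtain ⟨hxS, hx2, hx3, hx4, hx5⟩ := f2 x hx1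
          have hfx := hfil x hx2 hx4
          rw [hx0] at hfx
          refine mem_filter.2 ⟨hxS, hfx, Or.inr ?_⟩
          by_contra hcon
          apply hbE
          have h6 : ∀ w ∈ W x, t ≤ w → sc b ≤ w := by
            intro w hw hw2
            by_contra h7
            have h8 := hx5 w hw hw2
            exact hcon ⟨w, hw, by omega, not_le.1 h7⟩
          obtain ⟨x', hx'1, hx'2⟩ := hDm _ hs1
          obtain ⟨hx'S, -, -, hx'4, hx'5⟩ := f2 x' hx'1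
          obtain ⟨k1, k2, k3⟩ := hnx x hx4
          obtain ⟨l1, l2, l3⟩ := hnx x' hx'4
          rw [hx0] at k1
          rw [hx'2] at l1 l3
          have h7 : en x < sc b := H.excl hxS hx'S htm htb hs2 k1 l1 l3
            (fun w hw hw2 => by have := hx'5 w hw hw2; omega) h6
          refine mem_filter.2 ⟨hb, x, hx1, hx0, fun w hw hw2 => ?_, fun b' hb' hbb => ?_⟩
          · exact lt_of_lt_of_le h7 (h6 w hw hw2)
          · exact lt_of_lt_of_le h7 (hs3 b' hb' hbb)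
        · rw [if_neg hbig]
          exact hA
    refine (sum_le_sum h1).trans ?_
    rw [← mul_sum, sum_add_distrib]
    have s1 : ∑ b ∈ D, (if b ∈ E then Ph a else 0) ≤ K1 * Ph a := by
      rw [sum_ite_mem, sum_const, nsmul_eq_mul]
      refine mul_le_mul_of_nonneg_right ?_ (hPh0 a)
      exact_mod_cast (card_le_card inter_subset_right).trans hEc
    have s2 : ∑ b ∈ D, (if ∃ b' ∈ D, b < b' then φ (sc b) else Ph a) ≤ G * Ph a + Ph a := by
      rw [sum_ite]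
      refine add_le_add ?_ ?_
      · have inj : Set.InjOn sc (D.filter (fun b => ∃ b' ∈ D, b < b') : Set ℕ) := by
          intro b1 hb1 b2 hb2 h12
          rw [mem_coe, mem_filter] at hb1 hb2
          obtain ⟨h3, h4, h5⟩ := hs b1 hb1.2
          obtain ⟨h6, h7, h8⟩ := hs b2 hb2.2
          rcases lt_trichotomy b1 b2 with h | h | h
          · have := h5 b2 hb2.1 h
            omega
          · exact h
          · have := h8 b1 hb1.1 h
            omega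
        rw [← sum_image (f := φ) inj]
        refine le_trans (sum_le_sum_of_subset_of_nonneg (fun b hb => ?_) fun b _ _ => hφ0 b)
          (hgap D hDv (fun b hb b' hb' hbb => ?_) (Ph a) (hPh0 a) hDφ)
        · obtain ⟨b1, hb1, rfl⟩ := mem_image.1 hb
          exact (hs b1 (mem_filter.1 hb1).2).1
        · obtain ⟨x', hx'1, rfl⟩ := hDm b' hb'
          obtain ⟨hx'S, -, -, hx'4, hx'5⟩ := f2 x' hx'1
          obtain ⟨l1, l2, l3⟩ := hnx x' hx'4
          exact H.gap hx'S htm (hDt b hb) hbb (hDv hb) l1 l3 fun w hw hw2 => (hx'5 w hw hw2).le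
      · rw [sum_const, nsmul_eq_mul]
        refine mul_le_of_le_one_left (hPh0 a) ?_
        have hc1 : (D.filter (fun b => ¬ ∃ b' ∈ D, b < b')).card ≤ 1 := by
          rw [card_le_one]
          intro b1 hb1 b2 hb2
          rw [mem_filter] at hb1 hb2
          rcases lt_trichotomy b1 b2 with h | h | h
          · exact absurd ⟨b2, hb2.1, h⟩ hb1.2
          · exact h
          · exact absurd ⟨b1, hb1.1, h⟩ hb2.2
        exact_mod_cast hc1
    have h2K : 0 ≤ c * (2 * K) := mul_nonneg hc (by linarith)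
    calc c * (2 * K) * (∑ b ∈ D, (if b ∈ E then Ph a else 0) +
          ∑ b ∈ D, (if ∃ b' ∈ D, b < b' then φ (sc b) else Ph a)) ≤
          c * (2 * K) * (K1 * Ph a + (G * Ph a + Ph a)) :=
          mul_le_mul_of_nonneg_left (add_le_add s1 s2) h2K
      _ = _ := by ring
  have p3 : c * (1 / 4 + G + 1 + K1) * (2 * K * Ph a) ≤ 1 / 2 * (2 * K * Ph a) :=
    mul_le_mul_of_nonneg_right hcs (mul_nonneg (by linarith) (hPh0 a))
  rw [hsplit]
  nlinarith

/-- **LEMMA R** (removers with a varying rest pattern), for partners of positive dilution -/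
theorem lemR (H : RemSys μ y S B W v st en m e Dv) {c G K : ℝ} {K1 : ℕ} {h : β → ℝ}
    {φ ψ : ℕ → ℝ} (hc : 0 ≤ c) (hK : 0 ≤ K) (hcs : c * (1 / 4 + G + 1 + K1) ≤ 1 / 2)
    (hh : ∀ x ∈ S, 0 ≤ h x)
    (hfib : ∀ P : Finset ℕ, ∑ x ∈ S.filter (fun x => B x = P), h x ≤ K)
    (hφ0 : ∀ w, 0 ≤ φ w) (hφ1 : ∀ w, φ w ≤ 1) (hψ0 : ∀ w, 0 ≤ ψ w) (hψ1 : ∀ w, ψ w ≤ 1)
    (hφm : ∀ w w', w ≤ w' → w' < e → φ w ≤ φ w') (hψm : ∀ w w', w ≤ w' → w' < e → ψ w ≤ ψ w')
    (hψs : ∑ b ∈ Dv, ψ b ≤ 1 / 4)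
    (hgap : ∀ D ⊆ Dv, (∀ b ∈ D, ∀ b' ∈ D, b < b' → 1 < ∑ j ∈ Ioc b b', μ j) →
      ∀ r : ℝ, 0 ≤ r → (∀ b ∈ D, φ b ≤ r) → ∑ b ∈ D, φ b ≤ G * r)
    (hend : ∀ (t : ℕ) (P D : Finset ℕ) (x : ℕ → β), m ≤ t → (∀ b ∈ D, x b ∈ S ∧
      (B (x b)).filter (fun j => j < t) = P ∧ t ≤ b ∧ b ∈ B (x b) ∧
      (∀ j ∈ B (x b), t ≤ j → b ≤ j) ∧ (∀ w ∈ W (x b), t ≤ w → en (x b) < w)) →
      (∀ b ∈ D, ∀ b' ∈ D, b < b' → en (x b) < b') → D.card ≤ K1) :
    ∑ x ∈ S, h x * (c ^ (B x).card * ∏ w ∈ W x, (φ w * ψ w)) ≤ 2 * K := by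
  classical
  have h1 := lemR_ind H hc hK hcs hh hfib hφ0 hφ1 hψ0 hψ1 hφm hψm hψs hgap hend (e - m) m rfl
    le_rfl ∅ e
  rw [if_neg (lt_irrefl e), mul_one] at h1
  refine le_trans ?_ h1
  have h2 : S.filter (fun x => (B x).filter (fun j => j < m) = ∅ ∧
      (e ≤ e ∨ ∃ w ∈ W x, m ≤ w ∧ w < e)) = S := by
    refine filter_true_of_mem fun x hx => ⟨filter_eq_empty_iff.2 fun b hb => ?_, Or.inl le_rfl⟩
    have := (H.Dv_mem b (H.sub x hx hb)).1
    omega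
  have h3 : ∑ x ∈ S.filter (fun x => (B x).filter (fun j => j < m) = ∅ ∧
      (e ≤ e ∨ ∃ w ∈ W x, m ≤ w ∧ w < e)), wtR h B W c (fun w => φ w * ψ w) m x =
      ∑ x ∈ S, wtR h B W c (fun w => φ w * ψ w) m x := by rw [h2]
  refine le_trans (sum_le_sum fun x hx => ?_) (le_of_eq ?_) (b := ∑ x ∈ S,
    wtR h B W c (fun w => φ w * ψ w) m x)
  · unfold wtR
    have h4 : (B x).filter (fun b => m ≤ b) = B x := filter_true_of_mem fun b hb =>
      (H.Dv_mem b (H.sub x hx hb)).1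
    rw [h4]
    refine mul_le_mul_of_nonneg_left (mul_le_mul_of_nonneg_left ?_ (pow_nonneg hc _)) (hh x hx)
    rw [← prod_filter_mul_prod_filter_not (W x) (fun w => m ≤ w)]
    exact mul_le_of_le_one_right (prod_nonneg fun w _ => mul_nonneg (hφ0 w) (hψ0 w))
      (prod_le_one (fun w _ => mul_nonneg (hφ0 w) (hψ0 w)) fun w _ =>
        mul_le_one₀ (hφ1 w) (hψ0 w) (hψ1 w))
  · rw [← h3]

/-- **LEMMA R**, in terms of the dilution -/
theorem lemR_dl (H : RemPre μ y S B W v st m e Dv) {c G K : ℝ} {K1 : ℕ} {h : β → ℝ}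
    {φ ψ : ℕ → ℝ} (hc : 0 ≤ c) (hK : 0 ≤ K) (hcs : c * (1 / 4 + G + 1 + K1) ≤ 1 / 2)
    (hh : ∀ x ∈ S, 0 ≤ h x)
    (hfib : ∀ P : Finset ℕ, ∑ x ∈ S.filter (fun x => B x = P), h x ≤ K)
    (hφ0 : ∀ w, 0 ≤ φ w) (hφ1 : ∀ w, φ w ≤ 1) (hψ0 : ∀ w, 0 ≤ ψ w) (hψ1 : ∀ w, ψ w ≤ 1)
    (hφm : ∀ w w', w ≤ w' → w' < e → φ w ≤ φ w') (hψm : ∀ w w', w ≤ w' → w' < e → ψ w ≤ ψ w')
    (hψs : ∑ b ∈ Dv, ψ b ≤ 1 / 4)
    (hgap : ∀ D ⊆ Dv, (∀ b ∈ D, ∀ b' ∈ D, b < b' → 1 < ∑ j ∈ Ioc b b', μ j) →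
      ∀ r : ℝ, 0 ≤ r → (∀ b ∈ D, φ b ≤ r) → ∑ b ∈ D, φ b ≤ G * r)
    (hend : ∀ (t : ℕ) (P D : Finset ℕ) (x : ℕ → β), m ≤ t → (∀ b ∈ D, x b ∈ S ∧
      (∀ a ∈ B (x b), a < en (x b) ∧ 0 < ov μ (v (x b)) (st (x b)) (en (x b)) a) ∧
      (B (x b)).filter (fun j => j < t) = P ∧ t ≤ b ∧ b ∈ B (x b) ∧
      (∀ j ∈ B (x b), t ≤ j → b ≤ j) ∧ (∀ w ∈ W (x b), t ≤ w → en (x b) < w)) →
      (∀ b ∈ D, ∀ b' ∈ D, b < b' → en (x b) < b') → D.card ≤ K1) :
    ∑ x ∈ S, h x * ((∏ a ∈ B x, dl μ (v x) c (st x) (en x) a) * ∏ w ∈ W x, (φ w * ψ w)) ≤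
      2 * K := by
  classical
  set T := S.filter (fun x => ∀ a ∈ B x, dl μ (v x) c (st x) (en x) a ≠ 0) with hT
  have hTS : ∀ x ∈ T, x ∈ S := fun x hx => (mem_filter.1 hx).1
  have hpos : ∀ x ∈ T, ∀ b ∈ B x, b < en x ∧ 0 < ov μ (v x) (st x) (en x) b := fun x hx b hb => by
    obtain ⟨-, h2, h3, -⟩ := dl_pos ((mem_filter.1 hx).2 b hb)
    exact ⟨h2, h3⟩
  have HT : RemSys μ y T B W v st en m e Dv :=
    { mu_nonneg := H.mu_nonneg
      mu_le := H.mu_le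
      sub := fun x hx => H.sub x (hTS x hx)
      Dv_mem := H.Dv_mem
      disj := fun x hx => H.disj x (hTS x hx)
      type := fun x hx => H.type x (hTS x hx)
      st_le := fun x hx => H.st_le x (hTS x hx)
      pos := hpos }
  have hρ0 : ∀ w, 0 ≤ φ w * ψ w := fun w => mul_nonneg (hφ0 w) (hψ0 w)
  have h1 : ∑ x ∈ S, h x * ((∏ a ∈ B x, dl μ (v x) c (st x) (en x) a) *
      ∏ w ∈ W x, (φ w * ψ w)) = ∑ x ∈ T, h x * ((∏ a ∈ B x, dl μ (v x) c (st x) (en x) a) *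
      ∏ w ∈ W x, (φ w * ψ w)) := by
    rw [hT, sum_filter]
    refine sum_congr rfl fun x _ => ?_
    split_ifs with h2
    · rfl
    · push Not at h2
      obtain ⟨a, ha, h0⟩ := h2
      rw [prod_eq_zero ha h0, zero_mul, mul_zero]
  rw [h1]
  refine le_trans (sum_le_sum fun x hx => ?_) (lemR HT hc hK hcs (fun x hx => hh x (hTS x hx))
    (fun P => le_trans (sum_le_sum_of_subset_of_nonneg (filter_subset_filter _
      (filter_subset _ _)) fun x hx _ => hh x (mem_filter.1 hx).1) (hfib P))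
    hφ0 hφ1 hψ0 hψ1 hφm hψm hψs hgap fun t P D x htm hx hxx =>
      hend t P D x htm (fun b hb => ?_) hxx)
  · refine mul_le_mul_of_nonneg_left (mul_le_mul_of_nonneg_right ?_ (prod_nonneg fun w _ =>
      hρ0 w)) (hh x (hTS x hx))
    refine (prod_le_prod (fun a _ => dl_nonneg hc H.mu_nonneg _ _ _) fun a _ =>
      dl_le hc H.mu_nonneg _ _ _).trans (le_of_eq ?_)
    rw [prod_const]
  · obtain ⟨h2, h3⟩ := hx b hb
    exact ⟨hTS _ h2, hpos _ h2, h3⟩

/-- **LEMMA R** for phases cut at a common end -/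
theorem lemR_cut (H : RemPre μ y S B W v st m e Dv) {c G K : ℝ} {h : β → ℝ}
    {φ ψ : ℕ → ℝ} (hc : 0 ≤ c) (hK : 0 ≤ K) (hcs : c * (1 / 4 + G + 2) ≤ 1 / 2)
    (hh : ∀ x ∈ S, 0 ≤ h x)
    (hfib : ∀ P : Finset ℕ, ∑ x ∈ S.filter (fun x => B x = P), h x ≤ K)
    (hφ0 : ∀ w, 0 ≤ φ w) (hφ1 : ∀ w, φ w ≤ 1) (hψ0 : ∀ w, 0 ≤ ψ w) (hψ1 : ∀ w, ψ w ≤ 1)
    (hφm : ∀ w w', w ≤ w' → w' < e → φ w ≤ φ w') (hψm : ∀ w w', w ≤ w' → w' < e → ψ w ≤ ψ w')
    (hψs : ∑ b ∈ Dv, ψ b ≤ 1 / 4)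
    (hgap : ∀ D ⊆ Dv, (∀ b ∈ D, ∀ b' ∈ D, b < b' → 1 < ∑ j ∈ Ioc b b', μ j) →
      ∀ r : ℝ, 0 ≤ r → (∀ b ∈ D, φ b ≤ r) → ∑ b ∈ D, φ b ≤ G * r) :
    ∑ x ∈ S, h x * ((∏ a ∈ B x, dl μ (v x) c (st x) e a) * ∏ w ∈ W x, (φ w * ψ w)) ≤
      2 * K := by
  refine lemR_dl (K1 := 1) (en := fun _ => e) H hc hK (by push_cast; linarith) hh hfib hφ0 hφ1
    hψ0 hψ1 hφm hψm hψs hgap fun t P D x htm hx hxx => ?_
  rw [card_le_one]
  intro b hb b' hb'
  have h1 := (H.Dv_mem b (H.sub _ (hx b hb).1 (hx b hb).2.2.2.2.1)).2.1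
  have h2 := (H.Dv_mem b' (H.sub _ (hx b' hb').1 (hx b' hb').2.2.2.2.1)).2.1
  rcases lt_trichotomy b b' with h | h | h
  · have := hxx b hb b' hb' h
    omega
  · exact h
  · have := hxx b' hb' b hb h
    omega

end Vale.P028.H669
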