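import Vale.Agent.P028.H383.ColR

/-!
# Removers with a varying rest pattern: the places are primes

The place `j` is the prime `N - j`; the masses are at most `1 / (c1 p)` at the primes and `0` at
the other places; all places before `e` are larger than a constant.
-/

namespace Vale.P028.H669

open Finset

/-- the reciprocals of the primes of a short window -/
theorem sum_inv_window {a : ℕ} {Λ : ℝ} (ha : 2 ≤ a) (hΛ : 0 ≤ Λ) (Q : Finset ℕ)
    (hQ : ∀ p ∈ Q, p.Prime ∧ a ≤ p ∧ (p : ℝ) ≤ Λ * a) :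
    ∑ p ∈ Q, 1 / (p : ℝ) ≤ Λ * Real.log 4 / Real.log a := by
  have ha0 : (0 : ℝ) < a := by exact_mod_cast (by omega : 0 < a)
  have hla : 0 < Real.log a := Real.log_pos (by exact_mod_cast (by omega : 1 < a))
  have h1 : ∀ p ∈ Q, 1 / (p : ℝ) ≤ Real.log p / (a * Real.log a) := by
    intro p hp
    obtain ⟨h2, h3, h4⟩ := hQ p hp
    have h5 : (a : ℝ) ≤ p := by exact_mod_cast h3
    have h6 : Real.log a ≤ Real.log p := Real.log_le_log ha0 h5
    have hp0 : (0 : ℝ) < p := lt_of_lt_of_le ha0 h5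
    rw [div_le_div_iff₀ hp0 (mul_pos ha0 hla), one_mul]
    calc (a : ℝ) * Real.log a ≤ p * Real.log p := mul_le_mul h5 h6 hla.le hp0.le
      _ = _ := mul_comm _ _
  have h2 : ∑ p ∈ Q, Real.log p ≤ Chebyshev.theta (Λ * a) := by
    unfold Chebyshev.theta
    refine sum_le_sum_of_subset_of_nonneg (fun p hp => ?_) fun p hp _ => ?_
    · obtain ⟨h2, h3, h4⟩ := hQ p hp
      exact mem_filter.2 ⟨mem_Ioc.2 ⟨h2.pos, Nat.le_floor h4⟩, h2⟩
    · exact Real.log_nonneg (by exact_mod_cast (mem_filter.1 hp).2.one_lt.le)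
  have h3 := Chebyshev.theta_le_log4_mul_x (x := Λ * a) (by positivity)
  calc ∑ p ∈ Q, 1 / (p : ℝ) ≤ ∑ p ∈ Q, Real.log p / (a * Real.log a) := sum_le_sum h1
    _ = (∑ p ∈ Q, Real.log p) / (a * Real.log a) := by rw [sum_div]
    _ ≤ (Real.log 4 * (Λ * a)) / (a * Real.log a) :=
        div_le_div_of_nonneg_right (h2.trans h3) (mul_pos ha0 hla).le
    _ = _ := by
        field_simp

/-- a window of mass `> 1` is long -/
theorem gap_ratio {N : ℕ} {μ : ℕ → ℝ} {c1 Λ z : ℝ} (hc1 : 0 < c1) (hΛ : 0 ≤ Λ) {b b' : ℕ}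
    (hμ : ∀ j, j ≤ b' → μ j ≤ if (N - j).Prime then 1 / (c1 * ((N - j : ℕ) : ℝ)) else 0)
    (hz1 : 1 < z) (hz : z ≤ ((N - b' : ℕ) : ℝ)) (hz2 : Λ * Real.log 4 / Real.log z ≤ c1)
    (h : 1 < ∑ j ∈ Ioc b b', μ j) :
    Λ * ((N - b' : ℕ) : ℝ) < ((N - b : ℕ) : ℝ) := by
  by_contra hcon
  rw [not_lt] at hcon
  have hlz : 0 < Real.log z := Real.log_pos hz1
  have ha : 2 ≤ N - b' := by
    have : (1 : ℝ) < ((N - b' : ℕ) : ℝ) := lt_of_lt_of_le hz1 hz
    exact_mod_cast this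
  have hbN : b' < N := by omega
  set Q := ((Ioc b b').filter (fun j => (N - j).Prime)).image (fun j => N - j) with hQ
  have inj : Set.InjOn (fun j => N - j) ((Ioc b b').filter (fun j => (N - j).Prime) : Set ℕ) := by
    intro i hi j hj hij
    rw [mem_coe, mem_filter, mem_Ioc] at hi hj
    simp only at hij
    omega
  have h1 : ∑ j ∈ Ioc b b', μ j ≤ (∑ p ∈ Q, 1 / (p : ℝ)) / c1 := by
    rw [hQ, sum_image inj, sum_filter, sum_div]
    refine sum_le_sum fun j hj => ?_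
    rw [mem_Ioc] at hj
    refine (hμ j hj.2).trans ?_
    split_ifs
    · rw [one_div, one_div, mul_inv, mul_comm, div_eq_mul_inv]
    · rw [zero_div]
  have h2 := sum_inv_window (a := N - b') (Λ := Λ) ha hΛ Q (fun p hp => by
    obtain ⟨j, hj, rfl⟩ := mem_image.1 hp
    rw [mem_filter, mem_Ioc] at hj
    refine ⟨hj.2, by omega, le_trans ?_ hcon⟩
    exact_mod_cast (by omega : N - j ≤ N - b))
  have h3 : Λ * Real.log 4 / Real.log ((N - b' : ℕ) : ℝ) ≤ Λ * Real.log 4 / Real.log z := by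
    refine div_le_div_of_nonneg_left ?_ hlz (Real.log_le_log (by linarith) hz)
    exact mul_nonneg hΛ (Real.log_nonneg (by norm_num))
  have h4 : (∑ p ∈ Q, 1 / (p : ℝ)) / c1 ≤ 1 := by
    rw [div_le_one hc1]
    exact (h2.trans h3).trans hz2
  linarith

/-- a set of places with long gaps -/
theorem gap_sum {N : ℕ} {ε : ℝ} (hε : 0 < ε) (n : ℕ) : ∀ (D : Finset ℕ), D.card = n →
    (∀ b ∈ D, b < N) →
    (∀ b ∈ D, ∀ b' ∈ D, b < b' →
      (2 : ℝ) ^ (1 / ε) * ((N - b' : ℕ) : ℝ) < ((N - b : ℕ) : ℝ)) →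
    ∀ r : ℝ, 0 ≤ r → (∀ b ∈ D, ((N - b : ℕ) : ℝ) ^ (-ε) ≤ r) →
    ∑ b ∈ D, ((N - b : ℕ) : ℝ) ^ (-ε) ≤ 2 * r := by
  induction n with
  | zero =>
    intro D hD _ _ r hr _
    rw [card_eq_zero.1 hD, sum_empty]
    linarith
  | succ n ih =>
    intro D hD hN hg r hr hb
    have hne : D.Nonempty := by
      rw [← card_pos]
      omega
    set b' := D.max' hne with hb'
    have hm : b' ∈ D := max'_mem _ _
    rw [← add_sum_erase D _ hm]
    have h1 : ∀ b ∈ D.erase b', ((N - b : ℕ) : ℝ) ^ (-ε) ≤ r / 2 := by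
      intro b hbe
      have hbD := mem_of_mem_erase hbe
      have hlt : b < b' := lt_of_le_of_ne (le_max' _ _ hbD) (ne_of_mem_erase hbe)
      have h2 := hg b hbD b' hm hlt
      have h3 : (0 : ℝ) < ((N - b' : ℕ) : ℝ) := by
        exact_mod_cast (by have := hN b' hm; omega : 0 < N - b')
      have h4 : (0 : ℝ) < (2 : ℝ) ^ (1 / ε) := Real.rpow_pos_of_pos two_pos _
      have h5 : ((N - b : ℕ) : ℝ) ^ (-ε) ≤ ((2 : ℝ) ^ (1 / ε) * ((N - b' : ℕ) : ℝ)) ^ (-ε) :=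
        Real.rpow_le_rpow_of_nonpos (mul_pos h4 h3) h2.le (by linarith)
      rw [Real.mul_rpow h4.le h3.le, ← Real.rpow_mul two_pos.le] at h5
      have e1 : 1 / ε * -ε = -1 := by field_simp
      rw [e1, Real.rpow_neg_one] at h5
      have h6 := hb b' hm
      linarith
    have h2 := ih (D.erase b') (by rw [card_erase_of_mem hm]; omega)
      (fun b hb1 => hN b (mem_of_mem_erase hb1))
      (fun b hb1 b2 hb2 => hg b (mem_of_mem_erase hb1) b2 (mem_of_mem_erase hb2))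
      (r / 2) (by linarith) h1
    have h3 := hb b' hm
    linarith

variable {μ : ℕ → ℝ} {y : ℕ → Bool} {β : Type*} {S : Finset β} {B W : β → Finset ℕ}
  {v : β → ℕ → Bool} {st en : β → ℕ} {m e : ℕ} {Dv : Finset ℕ}

theorem place_rpow_le_one {N w : ℕ} {a : ℝ} (ha : 0 < a) : ((N - w : ℕ) : ℝ) ^ (-a) ≤ 1 := by
  rcases Nat.eq_zero_or_pos (N - w) with h | h
  · rw [h, Nat.cast_zero, Real.zero_rpow (by linarith)]
    exact zero_le_one
  · exact Real.rpow_le_one_of_one_le_of_nonpos (by exact_mod_cast h) (by linarith)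

theorem place_rpow_mono {N w w' : ℕ} {a : ℝ} (ha : 0 < a) (h : w ≤ w') (h' : w' < N) :
    ((N - w : ℕ) : ℝ) ^ (-a) ≤ ((N - w' : ℕ) : ℝ) ^ (-a) :=
  Real.rpow_le_rpow_of_nonpos (by exact_mod_cast (by omega : 0 < N - w'))
    (by exact_mod_cast (by omega : N - w' ≤ N - w)) (by linarith)

theorem place_rpow_mul {N w : ℕ} {a b : ℝ} (ha : 0 < a) (hb : 0 < b) :
    ((N - w : ℕ) : ℝ) ^ (-a) * ((N - w : ℕ) : ℝ) ^ (-b) = ((N - w : ℕ) : ℝ) ^ (-(a + b)) := by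
  rcases Nat.eq_zero_or_pos (N - w) with h | h
  · have h1 : -a ≠ 0 := by linarith
    have h2 : -(a + b) ≠ 0 := by linarith
    rw [h, Nat.cast_zero, Real.zero_rpow h1, Real.zero_rpow h2, zero_mul]
  · rw [← Real.rpow_add (by exact_mod_cast h)]
    ring_nf

/-- **LEMMA R, the places are primes**: every rest prime `w` has the weight `w ^ (-(κ + ε))`, where
`∑ b ^ (-κ) ≤ 1 / 4` over the possible removed primes; `ε > 0` is arbitrary if all primes are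
large in terms of `ε` and `c1`. -/
theorem lemR_prime (H : RemPre μ y S B W v st m e Dv) {c K c1 ε κ z : ℝ} {K1 N : ℕ} {h : β → ℝ}
    (heN : e ≤ N) (hc : 0 ≤ c) (hK : 0 ≤ K) (hcs : c * (13 / 4 + K1) ≤ 1 / 2)
    (hh : ∀ x ∈ S, 0 ≤ h x)
    (hfib : ∀ P : Finset ℕ, ∑ x ∈ S.filter (fun x => B x = P), h x ≤ K)
    (hc1 : 0 < c1) (hε : 0 < ε) (hκ : 0 < κ)
    (hμ : ∀ j, j < e → μ j ≤ if (N - j).Prime then 1 / (c1 * ((N - j : ℕ) : ℝ)) else 0)
    (hz1 : 1 < z) (hz : z ≤ ((N - e + 1 : ℕ) : ℝ))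
    (hz2 : (2 : ℝ) ^ (1 / ε) * Real.log 4 / Real.log z ≤ c1)
    (hψs : ∑ b ∈ Dv, ((N - b : ℕ) : ℝ) ^ (-κ) ≤ 1 / 4)
    (hend : ∀ (t : ℕ) (P D : Finset ℕ) (x : ℕ → β), m ≤ t → (∀ b ∈ D, x b ∈ S ∧
      (∀ a ∈ B (x b), a < en (x b) ∧ 0 < ov μ (v (x b)) (st (x b)) (en (x b)) a) ∧
      (B (x b)).filter (fun j => j < t) = P ∧ t ≤ b ∧ b ∈ B (x b) ∧
      (∀ j ∈ B (x b), t ≤ j → b ≤ j) ∧ (∀ w ∈ W (x b), t ≤ w → en (x b) < w)) →
      (∀ b ∈ D, ∀ b' ∈ D, b < b' → en (x b) < b') → D.card ≤ K1) :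
    ∑ x ∈ S, h x * ((∏ a ∈ B x, dl μ (v x) c (st x) (en x) a) *
      ∏ w ∈ W x, ((N - w : ℕ) : ℝ) ^ (-(ε + κ))) ≤ 2 * K := by
  have h1 := lemR_dl (en := en) (G := 2) (φ := fun w => ((N - w : ℕ) : ℝ) ^ (-ε))
    (ψ := fun w => ((N - w : ℕ) : ℝ) ^ (-κ)) H hc hK (by linarith) hh hfib
    (fun w => Real.rpow_nonneg (Nat.cast_nonneg _) _) (fun w => place_rpow_le_one hε)
    (fun w => Real.rpow_nonneg (Nat.cast_nonneg _) _) (fun w => place_rpow_le_one hκ)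
    (fun w w' h1 h2 => place_rpow_mono hε h1 (by omega))
    (fun w w' h1 h2 => place_rpow_mono hκ h1 (by omega)) hψs
    (fun D hD hg r hr hb => gap_sum hε D.card D rfl
      (fun b hb1 => by have := (H.Dv_mem b (hD hb1)).2.1; omega)
      (fun b hb1 b' hb2 hbb => by
        have hbe := (H.Dv_mem b' (hD hb2)).2.1
        refine gap_ratio hc1 (Real.rpow_nonneg two_pos.le _) (fun j hj => hμ j (by omega)) hz1
          (hz.trans ?_) hz2 (hg b hb1 b' hb2 hbb)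
        exact_mod_cast (by omega : N - e + 1 ≤ N - b')) r hr hb) hend
  refine le_trans (le_of_eq (sum_congr rfl fun x _ => ?_)) h1
  congr 2
  exact prod_congr rfl fun w _ => (place_rpow_mul hε hκ).symm

/-- **LEMMA R for phases cut at a common end, the places are primes** -/
theorem lemR_prime_cut (H : RemPre μ y S B W v st m e Dv) {c K c1 ε κ z : ℝ} {N : ℕ} {h : β → ℝ}
    (heN : e ≤ N) (hc : 0 ≤ c) (hK : 0 ≤ K) (hcs : c ≤ 1 / 9)
    (hh : ∀ x ∈ S, 0 ≤ h x)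
    (hfib : ∀ P : Finset ℕ, ∑ x ∈ S.filter (fun x => B x = P), h x ≤ K)
    (hc1 : 0 < c1) (hε : 0 < ε) (hκ : 0 < κ)
    (hμ : ∀ j, j < e → μ j ≤ if (N - j).Prime then 1 / (c1 * ((N - j : ℕ) : ℝ)) else 0)
    (hz1 : 1 < z) (hz : z ≤ ((N - e + 1 : ℕ) : ℝ))
    (hz2 : (2 : ℝ) ^ (1 / ε) * Real.log 4 / Real.log z ≤ c1)
    (hψs : ∑ b ∈ Dv, ((N - b : ℕ) : ℝ) ^ (-κ) ≤ 1 / 4) :
    ∑ x ∈ S, h x * ((∏ a ∈ B x, dl μ (v x) c (st x) e a) *
      ∏ w ∈ W x, ((N - w : ℕ) : ℝ) ^ (-(ε + κ))) ≤ 2 * K := by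
  refine lemR_prime (K1 := 1) (en := fun _ => e) H heN hc hK (by push_cast; linarith) hh hfib hc1
    hε hκ hμ hz1 hz hz2 hψs fun t P D x htm hx hxx => ?_
  rw [card_le_one]
  intro b hb b' hb'
  have h1 := (H.Dv_mem b (H.sub _ (hx b hb).1 (hx b hb).2.2.2.2.1)).2.1
  have h2 := (H.Dv_mem b' (H.sub _ (hx b' hb').1 (hx b' hb').2.2.2.2.1)).2.1
  rcases lt_trichotomy b b' with h | h | h
  · have := hxx b hb b' hb' h
    omega
  · exact h
  · have := hxx b' hb' b hb h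
    omega

end Vale.P028.H669
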